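import Vale.Agent.P167.H166Q.GDefs

/-!
# P167, the range `0 < q < 1`, block Q-NSYM: GREF, the tail of the gate

The tail `TL` of `H166Q.GDefs` with the two changes which are necessary for `q < 1`: the arms are
connections of the banks to the far ends of the tubes (instead of crossings of the tubes), and the
strand is confined by two arcs from the banks (instead of the event `no escape`).
-/

set_option autoImplicit false

namespace Vale.Agent.P167.N.H166Q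

open Vale.Agent.P145.FB (PStep PConn)
open Vale.Agent.P167 Vale.Agent.P167.FK Vale.Agent.P167.FKA Vale.Agent.P167.H318
open Vale.Agent.P167.H632 (cs)
open Vale.Agent.P167.H704.Q (bk)
open Vale.Agent.P167.H318.UQ (Oc Dc An Aq Te Tw Gt ArE ArW Ctr)
open Vale.Agent.P167.H685.Q (PQ TC hbF)
open Vale.Agent.P167.H166Q (OArcW DArcW K4 HT nxt)

/-- the tube of the colour `b` -/
noncomputable def Tb (b : Bool) (K x n : ℤ) : Finset (ℤ × ℤ) := if b then Te K x n else Tw K x n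

/-- the abscissa of the far end of the tube of the colour `b` -/
def fe (b : Bool) (x n K : ℤ) : ℤ := if b then x + 2 * (K * n) else x - 2 * (K * n)

/-- **a connection of colour `b` of the bank to the far end of the tube**, at height at least `n`; it
starts in the window of radius `R` around `y` -/
def Far (b : Bool) (S : St) (K3 K x y n R : ℤ) (ξ : Cfg) : Prop := ∃ s t : ℤ × ℤ,
  (∃ i ≤ S.m, bk b (H318.st S.e0 S.z i) = s) ∧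
  (y - R ≤ s.1 ∧ s.1 ≤ y + R + 1 ∧ 0 ≤ s.2 ∧ s.2 ≤ R + 1) ∧ t.1 = fe b x n K ∧
  PConn (cs b ξ ∩ ↑((Aq K3 K x n ∪ Tb b K x n).filter fun v => n ≤ v.2)) Set.univ s t

/-- **the tail** -/
def TL (S : St) (K3 K Λ x y n : ℤ) (ξ : Cfg) : Prop :=
  OArcW S y ((K3 + 8) * n) (Λ * (Λ * ((K3 + 8) * n))) ξ ∧
  DArcW S y ((K3 + 8) * n) (Λ * (Λ * ((K3 + 8) * n))) ξ ∧
  Far true S K3 K x y n (Λ * (Λ * ((K3 + 8) * n))) ξ ∧
  Far false S K3 K x y n (Λ * (Λ * ((K3 + 8) * n))) ξ ∧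
  OArcW S y (4 * n - 1) ((K3 - 4) * n) ξ ∧ DArcW S y (4 * n - 1) ((K3 - 4) * n) ξ

/-- **(P4)** probability of the tail -/
def TAIL (Q : ℝ) : Prop := ∃ Λ K30 : ℤ, 2 ≤ Λ ∧ 16 ≤ K30 ∧ ∀ K3 K : ℤ, K30 ≤ K3 →
  20 * K4 Λ K3 + 20 ≤ K → ∃ (c : ℝ) (n0 : ℤ), 0 < c ∧ 1 ≤ n0 ∧ ∀ (S : St) (x y ρ n : ℤ), n0 ≤ n →
  |y - x| ≤ 2 * n → 3 * (K * n) ≤ ρ → TC S n y ρ → c ≤ PQ Q S {ξ | TL S K3 K Λ x y n ξ}

/-- **(P5)** the gate (deterministic) -/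
def DET : Prop := ∀ K3 K Λ : ℤ, 16 ≤ K3 → 2 ≤ Λ → 20 * K4 Λ K3 + 20 ≤ K →
  ∀ (S : St) (x y1 y ρ n l' : ℤ) (ω ξ : Cfg), 1 ≤ n → 1 ≤ l' → 4 * l' ≤ n → |y1 - x| ≤ n →
  |y - y1| ≤ n → 4 * (K * n) ≤ ρ → TC S (K4 Λ K3 * n) y1 ρ → (∀ v, v ∉ S.F → ω v = S.z v) →
  HT S (K4 Λ K3 * n) y1 ρ n y ω → TC (nxt S y1 ρ n ω) n y (ρ - n) →
  (∀ v, v ∉ (nxt S y1 ρ n ω).F → ξ v = (nxt S y1 ρ n ω).z v) → TL (nxt S y1 ρ n ω) K3 K Λ x y n ξ →
  Gt K3 K x n ξ (Sum.inr (y, 4 * n - 1)) ∧ ArE K3 K x n ξ (Sum.inr (y, 4 * n - 1)) ∧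
    ArW K3 K x n ξ (Sum.inr (y, 4 * n - 1)) ∧ Ctr K3 K x n l' ξ (Sum.inr (y, 4 * n - 1))

end Vale.Agent.P167.N.H166Q
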