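import Vale.Agent.P167.N.Base.Crs
import Vale.Agent.P167.N.H461.LinkW
import Vale.Agent.P167.H192.Q.Exp
import Vale.Agent.P167.H704.Rc

/-!
# P167, the range `0 < q < 1`, block Q-NSYM: an arch with two tubes
-/

set_option autoImplicit false

namespace Vale.Agent.P167.N.H166Q

open Finset Relation Vale.Agent.P167 Vale.Agent.P167.FK Vale.Agent.P167.FKA
open Vale.Agent.P145.FB (PStep PConn)
open Vale.Agent.P153.Topo (Rect mem_rect)
open Vale.Agent.P167.H632 (cs cs_false pr)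
open Vale.Agent.P167.H704 (Hc Vc rq mem_rq meet congr_rect)
open Vale.Agent.P167.H704.Q (cst good_cst)
open Vale.Agent.P167.H192.Q (pw_shift1)
open Vale.Agent.P167.N.H461 (Bs CE)

variable {e : Bool} {y r R n F' F : ℤ}

/-- the arch at height at least `n` with two tubes -/
noncomputable def TT (y r R n F' F : ℤ) : Finset (ℤ × ℤ) :=
  (rq F' F n R).filter fun v => v.1 < F ∧ v.2 < R ∧
    ((y - R ≤ v.1 ∧ v.1 < y + R ∧ (v.1 < y - r ∨ y + r ≤ v.1 ∨ r ≤ v.2)) ∨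
      (v.2 < 2 * n ∧ (v.1 < y - r ∨ y + r ≤ v.1)))

theorem mem_TT {v : ℤ × ℤ} : v ∈ TT y r R n F' F ↔ F' ≤ v.1 ∧ v.1 < F ∧ n ≤ v.2 ∧ v.2 < R ∧
    ((y - R ≤ v.1 ∧ v.1 < y + R ∧ (v.1 < y - r ∨ y + r ≤ v.1 ∨ r ≤ v.2)) ∨
      (v.2 < 2 * n ∧ (v.1 < y - r ∨ y + r ≤ v.1))) := by
  unfold TT
  rw [Finset.mem_filter, mem_rq]
  constructor
  · rintro ⟨⟨a1, a2, a3, a4⟩, a5, a6, a7⟩
    exact ⟨a1, a5, a3, a6, a7⟩
  · rintro ⟨a1, a5, a3, a6, a7⟩
    exact ⟨⟨a1, by omega, a3, by omega⟩, a5, a6, a7⟩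

/-- the sites of the outside -/
def ST (y r R n F' F : ℤ) (z : ℤ × ℤ) : Prop :=
  (z.1 ≤ F' ∨ F ≤ z.1 ∨ z.2 ≤ n ∨ R ≤ z.2) ∨ (y - r ≤ z.1 ∧ z.1 ≤ y + r ∧ z.2 ≤ r) ∨
    ((z.1 ≤ y - R ∨ y + R ≤ z.1) ∧ 2 * n ≤ z.2)

theorem st_of_cor (hrR : r ≤ R) {v z : ℤ × ℤ} (hv : v ∉ TT y r R n F' F) (hz : Cor v z) :
    ST y r R n F' F z := by
  rw [mem_TT] at hv
  unfold ST
  unfold Cor at hz
  omega

/-- **the outside is connected** -/
theorem conn_TT (hr : 1 ≤ r) {z w : ℤ × ℤ}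
    (hzw : (z.1 + z.2) % 2 = (w.1 + w.2) % 2) (hz : ST y r R n F' F z) (hw : ST y r R n F' F w) :
    ReflTransGen (PStep (↑(TT y r R n F' F) : Set (ℤ × ℤ))ᶜ) z w := by
  have hmem : ∀ v : ℤ × ℤ, v ∈ (↑(TT y r R n F' F) : Set (ℤ × ℤ))ᶜ ↔ v ∉ TT y r R n F' F :=
    fun v => Iff.rfl
  -- the rectangle
  have hrect : ∀ z w : ℤ × ℤ, (z.1 + z.2) % 2 = (w.1 + w.2) % 2 →
      (z.1 ≤ F' ∨ F ≤ z.1 ∨ z.2 ≤ n ∨ R ≤ z.2) →
      (w.1 ≤ F' ∨ F ≤ w.1 ∨ w.2 ≤ n ∨ R ≤ w.2) →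
      ReflTransGen (PStep (↑(TT y r R n F' F) : Set (ℤ × ℤ))ᶜ) z w := by
    intro z w hzw hz hw
    rcases Int.emod_two_eq (z.1 + z.2) with h | h
    · refine outside_conn (a := F') (b := F - 1) (c := n) (d := R - 1) ?_ ?_ ?_
        (by omega) (by omega)
      · intro v hv
        rw [hmem, mem_TT]
        omega
      · rw [Int.even_iff]; exact h
      · rw [Int.even_iff]; omega
    · refine pw_shift1 (outside_conn (a := F' + 1) (b := F) (c := n) (d := R - 1) ?_ ?_ ?_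
        (by dsimp only; omega) (by dsimp only; omega))
      · intro v hv
        show (v.1 - 1, v.2) ∈ (↑(TT y r R n F' F) : Set (ℤ × ℤ))ᶜ
        rw [hmem, mem_TT]
        dsimp only
        omega
      · rw [Int.even_iff]; dsimp only; omega
      · rw [Int.even_iff]; dsimp only; omega
  -- down in the hole
  have hdown : ∀ (k : ℕ) (z : ℤ × ℤ), (y - r ≤ z.1 ∧ z.1 ≤ y + r ∧ z.2 ≤ r) → z.2 - n ≤ k →
      ∃ z' : ℤ × ℤ, (z.1 + z.2) % 2 = (z'.1 + z'.2) % 2 ∧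
      (z'.1 ≤ F' ∨ F ≤ z'.1 ∨ z'.2 ≤ n ∨ R ≤ z'.2) ∧
      ReflTransGen (PStep (↑(TT y r R n F' F) : Set (ℤ × ℤ))ᶜ) z z' := by
    intro k
    induction k with
    | zero =>
      intro z hz hk
      exact ⟨z, rfl, by push_cast at hk; omega, ReflTransGen.refl⟩
    | succ k ih =>
      intro z hz hk
      by_cases h2 : z.1 < y + r
      · obtain ⟨z', g1, g2, g3⟩ := ih (z.1 + 1, z.2 - 1) (by dsimp only; omega)
          (by push_cast at hk ⊢; omega)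
        dsimp only at g1
        refine ⟨z', by omega, g2, ReflTransGen.head ?_ g3⟩
        refine ⟨by dsimp only; omega, by dsimp only; omega, ?_⟩
        rw [hmem, mem_TT]
        dsimp only
        omega
      · obtain ⟨z', g1, g2, g3⟩ := ih (z.1 - 1, z.2 - 1) (by dsimp only; omega)
          (by push_cast at hk ⊢; omega)
        dsimp only at g1
        refine ⟨z', by omega, g2, ReflTransGen.head ?_ g3⟩
        refine ⟨by dsimp only; omega, by dsimp only; omega, ?_⟩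
        rw [hmem, mem_TT]
        dsimp only
        omega
  -- up above the tubes
  have hup : ∀ (k : ℕ) (z : ℤ × ℤ), ((z.1 ≤ y - R ∨ y + R ≤ z.1) ∧ 2 * n ≤ z.2) → R - z.2 ≤ k →
      ∃ z' : ℤ × ℤ, (z.1 + z.2) % 2 = (z'.1 + z'.2) % 2 ∧
      (z'.1 ≤ F' ∨ F ≤ z'.1 ∨ z'.2 ≤ n ∨ R ≤ z'.2) ∧
      ReflTransGen (PStep (↑(TT y r R n F' F) : Set (ℤ × ℤ))ᶜ) z z' := by
    intro k
    induction k with
    | zero =>
      intro z hz hk
      exact ⟨z, rfl, by push_cast at hk; omega, ReflTransGen.refl⟩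
    | succ k ih =>
      intro z hz hk
      by_cases h2 : y + R ≤ z.1
      · obtain ⟨z', g1, g2, g3⟩ := ih (z.1 + 1, z.2 + 1) (by dsimp only; omega)
          (by push_cast at hk ⊢; omega)
        dsimp only at g1
        refine ⟨z', by omega, g2, ReflTransGen.head ?_ g3⟩
        refine ⟨by dsimp only; omega, by dsimp only; omega, ?_⟩
        rw [hmem, mem_TT]
        dsimp only
        omega
      · obtain ⟨z', g1, g2, g3⟩ := ih (z.1 - 1, z.2 + 1) (by dsimp only; omega)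
          (by push_cast at hk ⊢; omega)
        dsimp only at g1
        refine ⟨z', by omega, g2, ReflTransGen.head ?_ g3⟩
        refine ⟨by dsimp only; omega, by dsimp only; omega, ?_⟩
        rw [hmem, mem_TT]
        dsimp only
        omega
  have hall : ∀ z : ℤ × ℤ, ST y r R n F' F z → ∃ z' : ℤ × ℤ, (z.1 + z.2) % 2 = (z'.1 + z'.2) % 2 ∧
      (z'.1 ≤ F' ∨ F ≤ z'.1 ∨ z'.2 ≤ n ∨ R ≤ z'.2) ∧
      ReflTransGen (PStep (↑(TT y r R n F' F) : Set (ℤ × ℤ))ᶜ) z z' := by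
    intro z hz
    rcases hz with hz | hz | hz
    · exact ⟨z, rfl, hz, ReflTransGen.refl⟩
    · exact hdown (z.2 - n).toNat z hz (by omega)
    · exact hup (R - z.2).toNat z hz (by omega)
  obtain ⟨z', a1, a2, a3⟩ := hall z hz
  obtain ⟨w', b1, b2, b3⟩ := hall w hw
  exact (a3.trans (hrect z' w' (by omega) a2 b2)).trans (rtg_symm b3)

theorem out_TT (hr : 1 ≤ r) (hrR : r ≤ R) : ∀ s ∈ Bs e (TT y r R n F' F),
    ∀ t ∈ Bs e (TT y r R n F' F),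
      ReflTransGen (PStep (↑(TT y r R n F' F) : Set (ℤ × ℤ))ᶜ) s t := by
  rintro s ⟨hs, v, hv, hvs⟩ t ⟨ht, w, hw, hwt⟩
  exact conn_TT hr (by rw [hs, ht]) (st_of_cor hrR hv hvs) (st_of_cor hrR hw hwt)

/-- the sites of the west end -/
def We (e : Bool) (n F' : ℤ) : Set (ℤ × ℤ) :=
  {s | s.1 = F' ∧ n ≤ s.2 ∧ s.2 ≤ 2 * n ∧ (s.1 + s.2) % 2 = pr e}

theorem We_Bs : We e n F' ⊆ Bs e (TT y r R n F' F) := by
  rintro ⟨s1, s2⟩ ⟨h1, h2, h3, h4⟩
  refine ⟨h4, (s1 - 1, s2), fun h => ?_, ⟨Or.inr (by dsimp only; omega), Or.inl rfl⟩⟩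
  rw [mem_TT] at h
  dsimp only at h h1
  omega

theorem Ee_Bs : We e n F ⊆ Bs e (TT y r R n F' F) := by
  rintro ⟨s1, s2⟩ ⟨h1, h2, h3, h4⟩
  refine ⟨h4, (s1, s2), fun h => ?_, ⟨Or.inl rfl, Or.inl rfl⟩⟩
  rw [mem_TT] at h
  dsimp only at h h1
  omega

theorem rtg_of_pconn {G Rg : Set (ℤ × ℤ)} {s t : ℤ × ℤ} (h : PConn G Rg s t) :
    ReflTransGen (PStep G) s t := by
  obtain ⟨-, h⟩ := h
  induction h with
  | refl => exact ReflTransGen.refl
  | tail _ h ih => exact ih.tail h.1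

/-- **five crossings join the two ends** -/
theorem ends_of {ω : Cfg} (hn : 1 ≤ n) (hr : n ≤ r) (h2n : 2 * n ≤ R) (hrR : r ≤ R)
    (hF' : F' ≤ y - R) (hF : y + R ≤ F)
    (h1 : ω ∈ Hc e F' (y - r) n (2 * n)) (h2 : ω ∈ Vc e (y - R) (y - r) n R)
    (h3 : ω ∈ Hc e (y - R) (y + R) r R) (h4 : ω ∈ Vc e (y + r) (y + R) n R)
    (h5 : ω ∈ Hc e (y + r) F n (2 * n)) :
    ω ∈ CE e (TT y r R n F' F) (We e n F') (We e n F) := by
  obtain ⟨s1, t1, a1, b1, c1, d1⟩ := h1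
  obtain ⟨s2, t2, a2, b2, c2, d2⟩ := h2
  obtain ⟨s3, t3, a3, b3, c3, d3⟩ := h3
  obtain ⟨s4, t4, a4, b4, c4, d4⟩ := h4
  obtain ⟨s5, t5, a5, b5, c5, d5⟩ := h5
  obtain ⟨z1, e1, f1⟩ := meet d2 a2.le (by omega) c2 d1 (by omega) (by omega) c1 (by omega)
    (by omega)
  obtain ⟨z2, e2, f2⟩ := meet d2 (c := r) (d := R) (by omega) (by omega) c2 d3 (by omega)
    (by omega) c3 (by omega) (by omega)
  obtain ⟨z3, e3, f3⟩ := meet d4 (c := r) (d := R) (by omega) (by omega) c4 d3 (by omega)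
    (by omega) c3 (by omega) (by omega)
  obtain ⟨z4, e4, f4⟩ := meet d4 (c := n) (d := 2 * n) (by omega) (by omega) c4 d5 (by omega)
    (by omega) c5 (by omega) (by omega)
  have q1 : ∀ {u v : ℤ × ℤ}, PConn (cs e ω) (Rect F' (y - r) n (2 * n)) u v →
      ReflTransGen (PStep (cs e ω ∩ ↑(TT y r R n F' F))) u v := fun h =>
    rtg_of_pconn (congr_rect (G := cs e ω ∩ ↑(TT y r R n F' F)) (fun v hv g1 g2 g3 g4 => ⟨hv, Finset.mem_coe.2
      (mem_TT.2 (by omega))⟩) h)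
  have q2 : ∀ {u v : ℤ × ℤ}, PConn (cs e ω) (Rect (y - R) (y - r) n R) u v →
      ReflTransGen (PStep (cs e ω ∩ ↑(TT y r R n F' F))) u v := fun h =>
    rtg_of_pconn (congr_rect (G := cs e ω ∩ ↑(TT y r R n F' F)) (fun v hv g1 g2 g3 g4 => ⟨hv, Finset.mem_coe.2
      (mem_TT.2 (by omega))⟩) h)
  have q3 : ∀ {u v : ℤ × ℤ}, PConn (cs e ω) (Rect (y - R) (y + R) r R) u v →
      ReflTransGen (PStep (cs e ω ∩ ↑(TT y r R n F' F))) u v := fun h =>
    rtg_of_pconn (congr_rect (G := cs e ω ∩ ↑(TT y r R n F' F)) (fun v hv g1 g2 g3 g4 => ⟨hv, Finset.mem_coe.2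
      (mem_TT.2 (by omega))⟩) h)
  have q4 : ∀ {u v : ℤ × ℤ}, PConn (cs e ω) (Rect (y + r) (y + R) n R) u v →
      ReflTransGen (PStep (cs e ω ∩ ↑(TT y r R n F' F))) u v := fun h =>
    rtg_of_pconn (congr_rect (G := cs e ω ∩ ↑(TT y r R n F' F)) (fun v hv g1 g2 g3 g4 => ⟨hv, Finset.mem_coe.2
      (mem_TT.2 (by omega))⟩) h)
  have q5 : ∀ {u v : ℤ × ℤ}, PConn (cs e ω) (Rect (y + r) F n (2 * n)) u v →
      ReflTransGen (PStep (cs e ω ∩ ↑(TT y r R n F' F))) u v := fun h =>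
    rtg_of_pconn (congr_rect (G := cs e ω ∩ ↑(TT y r R n F' F)) (fun v hv g1 g2 g3 g4 => ⟨hv, Finset.mem_coe.2
      (mem_TT.2 (by omega))⟩) h)
  have m1 := mem_rect.1 d1.left_mem
  have m5 := mem_rect.1 d5.right_mem
  have hpath := (q1 f1).trans ((rtg_symm (q2 e1)).trans ((q2 e2).trans ((rtg_symm (q3 f2)).trans
    ((q3 f3).trans ((rtg_symm (q4 e3)).trans ((q4 e4).trans ((rtg_symm (q5 f4)).trans
      (q5 d5))))))))
  have hpar : (t5.1 + t5.2) % 2 = pr e := by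
    have := d5.parity
    omega
  exact ⟨s1, ⟨a1, m1.2.2.1, m1.2.2.2, c1⟩, t5, ⟨b5, m5.2.2.1, m5.2.2.2, hpar⟩, hpath⟩

/-- **the two ends are joined with probability bounded below** -/
theorem ends_ge {Q : ℝ} (K : Kit Q) (κ : ℕ) : ∃ (c : ℝ) (n0 : ℤ), 0 < c ∧ c ≤ 1 ∧ 1 ≤ n0 ∧
    ∀ (e : Bool) (y r R n F' F : ℤ) (D : Finset (ℤ × ℤ)) (η : Cfg), Good η → n0 ≤ n → n ≤ r →
      r + n ≤ R → 2 * n ≤ R → F' ≤ y - R → y + R ≤ F → F - F' ≤ κ * n → R ≤ κ * n →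
      TT y r R n F' F ⊆ D →
      c ≤ Pr Q D η (CE e (TT y r R n F' F) (We e n F') (We e n F)) := by
  obtain ⟨c, s0, h1, h2, h3, h4⟩ := crs_ge K 5 κ
  refine ⟨c, s0, h1, h2, h3, fun e y r R n F' F D η hη hn hr hrR h2n hF' hF hFF hR hD => ?_⟩
  have hn1 : 1 ≤ n := h3.trans hn
  have h5 := h4 e n [⟨true, F', y - r, n, 2 * n⟩, ⟨false, y - R, y - r, n, R⟩,
    ⟨true, y - R, y + R, r, R⟩, ⟨false, y + r, y + R, n, R⟩, ⟨true, y + r, F, n, 2 * n⟩] D η hη hn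
    (by simp) (by
      intro X hX
      simp only [List.mem_cons, List.not_mem_nil, or_false] at hX
      rcases hX with rfl | rfl | rfl | rfl | rfl
      · exact Crs.ok_H (by omega) (by omega) (by omega) (by omega) fun v g1 g2 g3 g4 =>
          hD (mem_TT.2 (by omega))
      · exact Crs.ok_V (by omega) (by omega) (by omega) (by omega) fun v g1 g2 g3 g4 =>
          hD (mem_TT.2 (by omega))
      · exact Crs.ok_H (by omega) (by omega) (by omega) (by omega) fun v g1 g2 g3 g4 =>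
          hD (mem_TT.2 (by omega))
      · exact Crs.ok_V (by omega) (by omega) (by omega) (by omega) fun v g1 g2 g3 g4 =>
          hD (mem_TT.2 (by omega))
      · exact Crs.ok_H (by omega) (by omega) (by omega) (by omega) fun v g1 g2 g3 g4 =>
          hD (mem_TT.2 (by omega)))
  refine h5.trans (Pr_mono K.pos fun ω hω => ?_)
  simp only [Set.mem_ofPred_eq, List.mem_cons, List.not_mem_nil, or_false, forall_eq_or_imp,
    forall_eq, Crs.Ev_H, Crs.Ev_V] at hω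
  exact ends_of hn1 hr h2n (by omega) hF' hF hω.1 hω.2.1 hω.2.2.1 hω.2.2.2.1 hω.2.2.2.2

end Vale.Agent.P167.N.H166Q
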