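import Vale.Agent.P167.N.H166Q.GDefs
import Vale.Agent.P167.N.H166Q.Tube
import Vale.Agent.P167.N.Base.ArcW
import Vale.Agent.P167.H166Q.Tail
import Vale.Agent.P167.H685.Q.Det2

/-!
# P167, the range `0 < q < 1`, block Q-NSYM: probability of the tail of the gate
-/

set_option autoImplicit false

namespace Vale.Agent.P167.N.H166Q

open Finset Relation Vale.Agent.P167 Vale.Agent.P167.FK Vale.Agent.P167.FKA Vale.Agent.P167.H318
open Vale.Agent.P145.FB (PStep PConn)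
open Vale.Agent.P167.H259 (f_markov Ex_out)
open Vale.Agent.P167.H685.Q (PQ TC hbF mem_hbF Gq)
open Vale.Agent.P167.H632 (cs cs_false pr)
open Vale.Agent.P167.H704.Q (bk cst good_cst CU mem_CU CU_sub CU_fresh CU_disj TOk)
open Vale.Agent.P167.H192.ArcQ (AG1 PtU tx th)
open Vale.Agent.P167.H192.ArcP (past')
open Vale.Agent.P167.H166Q (tc_hdv tx_tc th_tc east_val west_val jump OArcW DArcW K4)
open Vale.Agent.P167.H318.UQ (An Aq Te Tw Oc Dc)
open Vale.Agent.P167.H685.Q.Det (mem_An mem_Aq cor_bk)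
open Vale.Agent.P167.N.H461 (BK CE Bs link_w)

variable {S : St} {x y ρ n r R : ℤ} {u : ℤ × ℤ → ℤ}

/-! ### independent events -/

/-- **events in disjoint domains** with probability at least `c` whatever happens elsewhere -/
theorem many {Q : ℝ} {F : Finset (ℤ × ℤ)} {z : Cfg} (hQ : 0 < Q) (hz : Good z) {c : ℝ}
    (hc : 0 ≤ c) : ∀ L : List (Finset (ℤ × ℤ) × Set Cfg), (∀ X ∈ L, X.1 ⊆ F) →
      (∀ X ∈ L, H871.Dep X.1 X.2) → L.Pairwise (fun X Y => Disjoint X.1 Y.1) →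
      (∀ X ∈ L, ∀ ζ : Cfg, Good ζ → (∀ v, v ∉ F → ζ v = z v) → c ≤ FK.Pr Q X.1 ζ X.2) →
      c ^ L.length ≤ FK.Pr Q F z {ω | ∀ X ∈ L, ω ∈ X.2} := by
  intro L
  induction L with
  | nil =>
    intro _ _ _ _
    have h1 : {ω : Cfg | ∀ X ∈ ([] : List (Finset (ℤ × ℤ) × Set Cfg)), ω ∈ X.2} = Set.univ := by
      ext ω
      simp
    rw [h1]
    unfold FK.Pr
    rw [show ((Set.univ : Set Cfg).indicator (1 : Cfg → ℝ)) = fun _ => 1 from
      funext fun ω => by simp, Ex_const hQ]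
    simp
  | cons X L ih =>
    intro h1 h2 h3 h4
    rw [List.pairwise_cons] at h3
    have ih' := ih (fun Y hY => h1 Y (List.mem_cons_of_mem _ hY))
      (fun Y hY => h2 Y (List.mem_cons_of_mem _ hY)) h3.2
      (fun Y hY => h4 Y (List.mem_cons_of_mem _ hY))
    set A : Set Cfg := {ω | ∀ Y ∈ L, ω ∈ Y.2} with hA
    have hAi : Ind X.1 (A.indicator (1 : Cfg → ℝ)) := by
      intro ω ω' hω
      have h5 : ω ∈ A ↔ ω' ∈ A := by
        refine forall_congr' fun Y => forall_congr' fun hY => ?_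
        exact (h2 Y (List.mem_cons_of_mem _ hY)).iff fun v hv =>
          hω v fun hv' => (Finset.disjoint_left.1 (h3.1 Y hY)) hv' hv
      by_cases h6 : ω ∈ A
      · rw [Set.indicator_of_mem h6, Set.indicator_of_mem (h5.1 h6)]
        rfl
      · rw [Set.indicator_of_notMem h6, Set.indicator_of_notMem fun h => h6 (h5.2 h)]
    have h7 : FK.Ex Q F z (fun ω => A.indicator 1 ω * X.2.indicator 1 ω) ≤
        FK.Pr Q F z {ω | ∀ Y ∈ X :: L, ω ∈ Y.2} := by
      refine Ex_mono hQ fun T _ => ?_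
      generalize cf F z T = ω
      by_cases g1 : ω ∈ A
      · by_cases g2 : ω ∈ X.2
        · have g3 : ω ∈ {ω : Cfg | ∀ Y ∈ X :: L, ω ∈ Y.2} := by
            intro Y hY
            rcases List.mem_cons.1 hY with rfl | hY
            · exact g2
            · exact g1 Y hY
          rw [Set.indicator_of_mem g1, Set.indicator_of_mem g2, Set.indicator_of_mem g3]
          simp
        · rw [Set.indicator_of_notMem g2, mul_zero]
          exact ind_nonneg _ _
      · rw [Set.indicator_of_notMem g1, zero_mul]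
        exact ind_nonneg _ _
    refine le_trans ?_ h7
    rw [markov f_markov hQ (h1 X (List.mem_cons_self ..)) hz hAi]
    have h8 : FK.Ex Q F z (fun ω => c * A.indicator (1 : Cfg → ℝ) ω) ≤
        FK.Ex Q F z (fun ω => A.indicator (1 : Cfg → ℝ) ω * FK.Ex Q X.1 ω (X.2.indicator 1)) :=
      Ex_mono hQ fun T _ => by
        rw [mul_comm]
        exact mul_le_mul_of_nonneg_left (h4 X (List.mem_cons_self ..) _ (f_good.1 _ _ _ hz)
          fun v hv => cf_out hv) (ind_nonneg _ _)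
    refine le_trans ?_ h8
    rw [Ex_mul_left, List.length_cons, pow_succ, mul_comm]
    exact mul_le_mul_of_nonneg_left ih' hc

/-! ### the arcs -/

theorem ag1_of' (h : TC S n y ρ) (hn : 1 ≤ n) (hr : 4 * n - 1 ≤ r) (hrR : r ≤ R) (hR : R ≤ ρ) :
    AG1 S y r R := by
  refine ⟨h.toOk, fun a h1 h2 => h.gq.ne a (by omega) (by omega), fun v hv => ?_,
    fun a h1 h2 => h.flat'.not a (by omega) (by omega), fun v hv => ?_, ?_, fun a h1 h2 => ?_⟩
  · obtain ⟨a1, a2, a3, a4⟩ := hv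
    exact h.flat'.mem v ⟨by omega, by omega, a3, by omega⟩
  · obtain ⟨a1, a2, a3, a4⟩ := hv
    exact h.po v ⟨by omega, by omega, a3, by omega⟩
  · rw [tc_hdv h]
    exact ⟨by dsimp only; omega, by dsimp only; omega, by dsimp only; omega, by dsimp only; omega⟩
  · rw [tc_hdv h] at h2 ⊢
    dsimp only at h2 ⊢
    exact h.fresh _ ⟨by dsimp only; omega, by dsimp only; omega, h1, by dsimp only; omega⟩

theorem OArcW.mono {b r' R' : ℤ} {ξ : Cfg} (h1 : r' ≤ r) (h2 : R ≤ R') (h : OArcW S b r R ξ) :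
    OArcW S b r' R' ξ := by
  obtain ⟨s, p, a1, a2, a3, a4, a5⟩ := h
  refine ⟨s, p, a1, a2, by omega, by omega, ?_⟩
  refine PConn.mono ?_ subset_rfl a5
  rintro v ⟨hv1, hv2⟩
  obtain ⟨g1, g2⟩ := Finset.mem_inter.1 (Finset.mem_coe.1 hv2)
  exact ⟨hv1, Finset.mem_coe.2 (Finset.mem_inter.2 ⟨g1, N.An_mono h1 h2 g2⟩)⟩

theorem DArcW.mono {b r' R' : ℤ} {ξ : Cfg} (h1 : r' ≤ r) (h2 : R ≤ R') (h : DArcW S b r R ξ) :
    DArcW S b r' R' ξ := by
  obtain ⟨s, p, a1, a2, a3, a4, a5⟩ := h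
  refine ⟨s, p, a1, a2, by omega, by omega, ?_⟩
  refine PConn.mono ?_ subset_rfl a5
  rintro v ⟨hv1, hv2⟩
  obtain ⟨g1, g2⟩ := Finset.mem_inter.1 (Finset.mem_coe.1 hv2)
  exact ⟨hv1, Finset.mem_coe.2 (Finset.mem_inter.2 ⟨g1, N.An_mono h1 h2 g2⟩)⟩

theorem dep_O {b r R : ℤ} : H871.Dep (S.F ∩ An b r R) {ξ | OArcW S b r R ξ} := by
  rintro o o' ho ⟨s, p, a1, a2, a3, a4, a5⟩
  refine ⟨s, p, a1, a2, a3, a4, PConn.mono ?_ subset_rfl a5⟩
  rintro v ⟨hv1, hv2⟩
  refine ⟨?_, hv2⟩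
  show o' v = true
  rw [← ho v (Finset.mem_coe.1 hv2)]
  exact hv1

theorem dep_D {b r R : ℤ} : H871.Dep (S.F ∩ An b r R) {ξ | DArcW S b r R ξ} := by
  rintro o o' ho ⟨s, p, a1, a2, a3, a4, a5⟩
  refine ⟨s, p, a1, a2, a3, a4, PConn.mono ?_ subset_rfl a5⟩
  rintro v ⟨hv1, hv2⟩
  refine ⟨?_, hv2⟩
  show ¬ o' v = true
  rw [← ho v (Finset.mem_coe.1 hv2)]
  exact hv1

theorem dep_BK {e : Bool} {E : Finset (ℤ × ℤ)} {B : Set (ℤ × ℤ)} : H871.Dep E (BK e S E B) := by
  rintro o o' ho ⟨i, hi, v, hv, hp⟩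
  refine ⟨i, hi, v, hv, Relation.ReflTransGen.mono (fun a b h => ?_) _ _ hp⟩
  refine ⟨h.1, h.2.1, ?_, h.2.2.2⟩
  have h1 := h.2.2.1
  have h2 := ho _ (Finset.mem_coe.1 h.2.2.2)
  show o' _ = e
  rw [← h2]
  exact h1

theorem disj_An {F : Finset (ℤ × ℤ)} {b r R r' R' : ℤ} (h : R ≤ r') :
    Disjoint (F ∩ An b r R) (F ∩ An b r' R') := by
  rw [Finset.disjoint_left]
  intro v hv hv'
  obtain ⟨-, h1⟩ := Finset.mem_inter.1 hv
  obtain ⟨-, h2⟩ := Finset.mem_inter.1 hv'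
  obtain ⟨⟨a1, a2, a3, a4⟩, -⟩ := mem_An.1 h1
  exact (mem_An.1 h2).2 ⟨by omega, by omega, a3, by omega⟩

theorem disj_TT {F : Finset (ℤ × ℤ)} {e : Bool} {b r R r' R' F1 F2 : ℤ} (h : R + 1 ≤ r')
    (_h2 : 2 * n ≤ r') :
    Disjoint (F ∩ An b r R) (CU e S (TT b r' R' n F1 F2) u) := by
  rw [Finset.disjoint_left]
  intro v hv hv'
  obtain ⟨-, h1⟩ := Finset.mem_inter.1 hv
  have h3 := mem_TT.1 (CU_sub hv')
  obtain ⟨⟨a1, a2, a3, a4⟩, -⟩ := mem_An.1 h1
  omega

/-! ### the banks -/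

/-- the banks are high -/
theorem bank_high (h : TC S n y ρ) {b : Bool} {i : ℕ} (hi : i ≤ S.m)
    (h1 : y - ρ + 1 ≤ (bk b (H318.st S.e0 S.z i)).1) (h2 : (bk b (H318.st S.e0 S.z i)).1 ≤ y + ρ)
    (h3 : 0 ≤ (bk b (H318.st S.e0 S.z i)).2) : 4 * n ≤ (bk b (H318.st S.e0 S.z i)).2 := by
  obtain ⟨c1, c2⟩ := cor_bk b (H318.st S.e0 S.z i)
  rcases hi.lt_or_eq with h4 | h4
  · by_contra hcon
    obtain ⟨g1, g2⟩ := H318.Bs.hit_min (D := S.D) (e0 := S.e0) (A := ↑S.F) (ξ := S.z) h4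
    have h5 : 0 ≤ (hdv (H318.st S.e0 S.z i)).2 ∨ (hdv (H318.st S.e0 S.z i)).2 = -1 := by omega
    rcases h5 with h5 | h5
    · refine g1 (Finset.mem_coe.2 (h.fresh _ ⟨?_, ?_, h5, ?_⟩)) <;> omega
    · refine h.flat.not (hdv (H318.st S.e0 S.z i)).1 (by omega) (by omega) ?_
      rw [← h5]
      exact g2
  · have h5 : H318.st S.e0 S.z i = Sum.inr (y, 4 * n - 1) := by
      rw [h4]
      exact h.tip
    rw [h5]
    cases b
    · show 4 * n ≤ (rs (Sum.inr (y, 4 * n - 1))).2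
      simp only [rs]
      split_ifs <;> simp
    · show 4 * n ≤ (ls (Sum.inr (y, 4 * n - 1))).2
      simp only [ls]
      split_ifs <;> simp

/-- the conditions for the tubes -/
theorem tok_TT {F1 F2 : ℤ} (h : TC S n y ρ) (hn : 1 ≤ n) (hr : 4 * n ≤ r) (_hrR : r ≤ R)
    (hR : R ≤ ρ) (h1 : y - ρ ≤ F1) (h2 : F2 ≤ y + ρ) :
    TOk S y (4 * n) (TT y r R n F1 F2) := by
  intro v hv
  have h3 := mem_TT.1 hv
  have hm : v ∈ Lo y ρ (ρ + 1) := ⟨by omega, by omega, by omega, by omega⟩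
  refine ⟨h.flat'.mem v hm, ?_, fun hc => ?_⟩
  · rcases h.po v hm with hF | ⟨i, hi, hi'⟩
    · exact Or.inl hF
    · refine Or.inr ?_
      exact ⟨i, hi, hi'⟩
  · obtain ⟨c1, c2, c3⟩ := hc
    omega

/-! ### the arms -/

/-- the abscissa of the end of the tube of the colour `e` -/
theorem fe_true (x n K : ℤ) : fe true x n K = x + 2 * (K * n) := rfl

theorem fe_false (x n K : ℤ) : fe false x n K = x - 2 * (K * n) := rfl

/-- the bank of colour `e` is joined to the far end of its tube, whatever happens elsewhere -/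
theorem far_ge {Q : ℝ} (hK : Kit Q) (κ : ℕ) : ∃ (c : ℝ) (n0 : ℤ), 0 < c ∧ c ≤ 1 ∧ 1 ≤ n0 ∧
    ∀ (e : Bool) (S : St) (u : ℤ × ℤ → ℤ) (x y ρ r R n K : ℤ) (ζ : Cfg), n0 ≤ n → TC S n y ρ →
      PtU S u → 4 * n ≤ r → r + n ≤ R → R ≤ ρ → x - 2 * (K * n) ≤ y - R →
      y + R ≤ x + 2 * (K * n) → y - ρ ≤ x - 2 * (K * n) → x + 2 * (K * n) ≤ y + ρ →
      4 * (K * n) ≤ κ * n → R ≤ κ * n → Good ζ →
      c ≤ FK.Pr Q (CU e S (TT y r R n (x - 2 * (K * n)) (x + 2 * (K * n))) u) ζ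
        (BK e S (CU e S (TT y r R n (x - 2 * (K * n)) (x + 2 * (K * n))) u)
          (We e n (fe e x n K))) := by
  obtain ⟨c, n0, h1, h2, h3, h4⟩ := ends_ge hK κ
  refine ⟨c, n0, h1, h2, h3, fun e S u x y ρ r R n K ζ hn hT hu hr hrR hR a1 a2 a3 a4 a5 a6 hg => ?_⟩
  have hn1 : 1 ≤ n := h3.trans hn
  have h5 := h4 e y r R n (x - 2 * (K * n)) (x + 2 * (K * n))
    (TT y r R n (x - 2 * (K * n)) (x + 2 * (K * n))) (cst e) (good_cst e) hn (by omega) hrR
    (by omega) a1 a2 (by omega) a6 (Finset.Subset.refl _)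
  have hjump := jump hT hn1 (by omega) hu
  have hj0 : u (ls S.tip) = u (rs S.tip) + 1 := hjump S.m le_rfl
  have hu' : Pt0 S y (4 * n) u := by
    have h6 : Pt0 S (tx S) (th S) u := hu
    rwa [tx_tc hT, th_tc hT] at h6
  have hW : ∀ e' : Bool, ∀ s ∈ We e' n (x - 2 * (K * n)), u s = u (rs S.tip) := by
    rintro e' s ⟨g1, g2, g3, g4⟩
    exact west_val hT hn1 (by omega) hu (by omega) (by omega) (by omega) (by omega)
  have hE : ∀ e' : Bool, ∀ s ∈ We e' n (x + 2 * (K * n)), u s = u (ls S.tip) := by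
    rintro e' s ⟨g1, g2, g3, g4⟩
    exact east_val hT hn1 (by omega) hu (by omega) (by omega) (by omega) (by omega)
  have hto : TOk S y (4 * n) (TT y r R n (x - 2 * (K * n)) (x + 2 * (K * n))) :=
    tok_TT hT hn1 hr (by omega) hR a3 a4
  have htip : hdv S.tip = (y, 4 * n - 1) := tc_hdv hT
  cases e
  · rw [fe_false]
    refine (h5.trans (Pr_mono hK.pos N.CE_symm)).trans ?_
    refine link_w (e := false) hK.pos hK.le hu' hT.toOk (by omega) htip hjump hto
      (out_TT (by omega) (by omega)) Ee_Bs We_Bs (fun s hs => ?_) (fun s hs => ?_) hg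
      (Finset.Subset.refl _)
    · rw [hE _ s hs]
      show u (ls S.tip) ≠ u (rs S.tip)
      omega
    · exact hW _ s hs
  · rw [fe_true]
    refine h5.trans ?_
    refine link_w (e := true) hK.pos hK.le hu' hT.toOk (by omega) htip hjump hto
      (out_TT (by omega) (by omega)) We_Bs Ee_Bs (fun s hs => ?_) (fun s hs => ?_) hg
      (Finset.Subset.refl _)
    · rw [hW _ s hs]
      show u (rs S.tip) ≠ u (ls S.tip)
      omega
    · exact hE _ s hs

/-- the event of `far_ge` gives the arm -/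
theorem far_of {e : Bool} {K3 K R0 : ℤ} {ξ : Cfg} (hT : TC S n y ρ) (hn : 1 ≤ n)
    (hu : PtU S u) (hxy : |y - x| ≤ 2 * n) (hK3 : 0 ≤ K3) (hr : (K3 + 8) * n ≤ r) (hrR : r ≤ R)
    (hR0 : R ≤ R0) (hRK : R + 2 * n + 1 ≤ K * n) (hρ : 3 * (K * n) ≤ ρ)
    (h : ξ ∈ BK e S (CU e S (TT y r R n (x - 2 * (K * n)) (x + 2 * (K * n))) u)
      (We e n (fe e x n K))) : Far e S K3 K x y n R0 ξ := by
  have hxy' := abs_le.1 hxy
  have h8 : (K3 + 8) * n = K3 * n + 8 * n := by ring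
  have h0 : 0 ≤ K3 * n := by positivity
  obtain ⟨i, hi, t, ht, hp⟩ := h
  obtain ⟨t1, t2, t3, t4⟩ := ht
  have hfe : x - 2 * (K * n) ≤ fe e x n K ∧ fe e x n K ≤ x + 2 * (K * n) := by
    cases e
    · rw [fe_false]; omega
    · rw [fe_true]; omega
  have hj0 : u (ls S.tip) = u (rs S.tip) + 1 := jump hT hn (by omega) hu S.m le_rfl
  have hbk : (bk e (H318.st S.e0 S.z i)).1 ≤ y + R + 1 ∧
      y - R ≤ (bk e (H318.st S.e0 S.z i)).1 ∧ 0 ≤ (bk e (H318.st S.e0 S.z i)).2 ∧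
      (bk e (H318.st S.e0 S.z i)).2 ≤ R + 1 := by
    rcases Relation.ReflTransGen.cases_head hp with h2 | ⟨s1, h2, -⟩
    · exfalso
      have h9 := bank_high hT (b := e) hi (by rw [h2]; omega) (by rw [h2]; omega)
        (by rw [h2]; omega)
      rw [h2] at h9
      omega
    · have h9 := (cor_of_step h2).1
      have h10 := mem_TT.1 (CU_sub (Finset.mem_coe.1 h2.2.2.2))
      obtain ⟨c1, c2⟩ := h9
      dsimp only at c1 c2 h10
      have h11 := bank_high hT (b := e) hi (by omega) (by omega) (by omega)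
      omega
  refine ⟨_, t, ⟨i, hi, rfl⟩, ⟨by omega, by omega, by omega, by omega⟩, t1, ?_⟩
  refine PConn.mono ?_ subset_rfl (N.rtg_pconn hp)
  rintro v ⟨hv1, hv2⟩
  refine ⟨hv1, Finset.mem_coe.2 ?_⟩
  obtain ⟨g1, g2, g3⟩ := mem_CU.1 (Finset.mem_coe.1 hv2)
  obtain ⟨m1, m2, m3, m4, m5⟩ := mem_TT.1 g1
  rw [Finset.mem_filter, Finset.mem_union]
  refine ⟨?_, m3⟩
  by_cases h6 : x - K * n ≤ v.1 ∧ v.1 ≤ x + K * n
  · exact Or.inl (mem_Aq.2 ⟨⟨h6.1, h6.2, by omega, by omega⟩, fun h7 => by omega⟩)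
  · right
    have h7 : v.2 < 2 * n := by omega
    cases e
    · have h9 : ¬ y + 4 * n < v.1 := fun h10 => by
        have h11 := east_val hT hn (by omega) hu (v := v) h10 (by omega) (by omega) (by omega)
        have h12 : u v = u (rs S.tip) := g3
        omega
      show v ∈ Tw K x n
      unfold Tw
      rw [H318.UQ.mem_Rc]
      omega
    · have h9 : ¬ v.1 ≤ y - 4 * n := fun h10 => by
        have h11 := west_val hT hn (by omega) hu (v := v) h10 (by omega) (by omega) (by omega)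
        have h12 : u v = u (ls S.tip) := g3
        omega
      show v ∈ Te K x n
      unfold Te
      rw [H318.UQ.mem_Rc]
      omega

/-- **Probability of the tail.** -/
theorem tail {Q : ℝ} (hK : Kit Q) : TAIL Q := by
  obtain ⟨Λ, c1, hΛ, hc1, harc⟩ := hK.arcw
  have hΛ2 : 4 * Λ ≤ Λ * Λ := by nlinarith
  refine ⟨Λ * Λ, 4 * (Λ * Λ) + 20, by omega, by omega, fun K3 K hK3 hKK => ?_⟩
  obtain ⟨c2, n0, hc2, -, hn0, hfar⟩ := far_ge hK (4 * K).toNat
  have hc : 0 < min c1 c2 := lt_min hc1 hc2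
  refine ⟨min c1 c2 ^ 6, n0, by positivity, hn0, fun S x y ρ n hn hxy hρ hT => ?_⟩
  have hn1 : 1 ≤ n := hn0.trans hn
  have hxy' := abs_le.1 hxy
  -- the lengths
  obtain ⟨k, hkd⟩ : ∃ k, K3 * n = k := ⟨_, rfl⟩
  obtain ⟨kk, hkkd⟩ : ∃ k, K * n = k := ⟨_, rfl⟩
  obtain ⟨r1, hr1d⟩ : ∃ k, (K3 + 8) * n = k := ⟨_, rfl⟩
  obtain ⟨R1, hR1d⟩ : ∃ k, Λ * r1 = k := ⟨_, rfl⟩
  obtain ⟨R2, hR2d⟩ : ∃ k, Λ * R1 = k := ⟨_, rfl⟩
  obtain ⟨R3, hR3d⟩ : ∃ k, Λ * R2 = k := ⟨_, rfl⟩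
  obtain ⟨R4, hR4d⟩ : ∃ k, Λ * R3 = k := ⟨_, rfl⟩
  obtain ⟨s1, hs1d⟩ : ∃ k, Λ * (4 * n - 1) = k := ⟨_, rfl⟩
  obtain ⟨s2, hs2d⟩ : ∃ k, Λ * s1 = k := ⟨_, rfl⟩
  have hr1 : r1 = k + 8 * n := by rw [← hr1d, ← hkd]; ring
  have h20 : 4 * (Λ * Λ) * n + 20 * n ≤ k := by
    rw [← hkd]
    have := mul_le_mul_of_nonneg_right hK3 (show (0 : ℤ) ≤ n by omega)
    linarith
  have hs1 : 4 * (4 * n - 1) ≤ s1 := by
    rw [← hs1d]; exact mul_le_mul_of_nonneg_right hΛ (by omega)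
  have hs2 : 4 * s1 ≤ s2 := by
    rw [← hs2d]; exact mul_le_mul_of_nonneg_right hΛ (by omega)
  have hs2' : s2 + 20 * n ≤ k := by
    have h1 : s2 = 4 * (Λ * Λ) * n - Λ * Λ := by rw [← hs2d, ← hs1d]; ring
    have h2 : 0 ≤ Λ * Λ := by positivity
    omega
  have hR1 : 4 * r1 ≤ R1 := by
    rw [← hR1d]; exact mul_le_mul_of_nonneg_right hΛ (by omega)
  have hR2 : 4 * R1 ≤ R2 := by
    rw [← hR2d]; exact mul_le_mul_of_nonneg_right hΛ (by omega)
  have hR3 : 4 * R2 ≤ R3 := by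
    rw [← hR3d]; exact mul_le_mul_of_nonneg_right hΛ (by omega)
  have hR4 : 4 * R3 ≤ R4 := by
    rw [← hR4d]; exact mul_le_mul_of_nonneg_right hΛ (by omega)
  have hL : Λ * Λ * (Λ * Λ * r1) = R4 := by
    rw [← hR4d, ← hR3d, ← hR2d, ← hR1d]; ring
  have hkk : 20 * R4 + 20 * n ≤ kk := by
    have h1 := mul_le_mul_of_nonneg_right hKK (show (0 : ℤ) ≤ n by omega)
    have h2 : (20 * K4 (Λ * Λ) K3 + 20) * n = 20 * R4 + 20 * n := by
      rw [← hL, ← hr1d]; unfold K4; ring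
    rw [h2, hkkd] at h1
    exact h1
  have h4k : (K3 - 4) * n = k - 4 * n := by rw [← hkd]; ring
  rw [hkkd] at hρ
  obtain ⟨u, hu⟩ := (Vale.Agent.P167.H166Q.ag1_of hT hn1 le_rfl (show 4 * n ≤ ρ by omega)
    le_rfl).exists_pt (by omega)
  have hjump := jump hT hn1 (by omega) hu
  have hKn : 4 * (K * n) ≤ ((4 * K).toNat : ℤ) * n := by
    have hK0 : 0 ≤ 4 * K := by
      by_contra hcon
      have : K * n < 0 := mul_neg_of_neg_of_pos (by omega) (by omega)
      omega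
    rw [Int.toNat_of_nonneg hK0]
    linarith
  set T := TT y (R2 + 1) (R2 + 1 + n) n (x - 2 * (K * n)) (x + 2 * (K * n)) with hTd
  -- the events
  have key := many (F := S.F) (z := S.z) hK.pos hT.gq.good hc.le
    [(S.F ∩ An y (4 * n - 1) s1, {ξ | OArcW S y (4 * n - 1) s1 ξ}),
      (S.F ∩ An y s1 s2, {ξ | DArcW S y s1 s2 ξ}),
      (S.F ∩ An y r1 R1, {ξ | OArcW S y r1 R1 ξ}),
      (S.F ∩ An y R1 R2, {ξ | DArcW S y R1 R2 ξ}),
      (CU true S T u, BK true S (CU true S T u) (We true n (fe true x n K))),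
      (CU false S T u, BK false S (CU false S T u) (We false n (fe false x n K)))] (by
      intro X hX
      simp only [List.mem_cons, List.not_mem_nil, or_false] at hX
      rcases hX with rfl | rfl | rfl | rfl | rfl | rfl
      · exact Finset.inter_subset_left
      · exact Finset.inter_subset_left
      · exact Finset.inter_subset_left
      · exact Finset.inter_subset_left
      · exact CU_fresh
      · exact CU_fresh) (by
      intro X hX
      simp only [List.mem_cons, List.not_mem_nil, or_false] at hX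
      rcases hX with rfl | rfl | rfl | rfl | rfl | rfl
      · exact dep_O
      · exact dep_D
      · exact dep_O
      · exact dep_D
      · exact dep_BK
      · exact dep_BK) (by
      simp only [List.pairwise_cons, List.mem_cons, List.not_mem_nil, or_false, forall_eq_or_imp,
        forall_eq]
      refine ⟨⟨disj_An le_rfl, disj_An (by omega), disj_An (by omega),
        disj_TT (by omega) (by omega), disj_TT (by omega) (by omega)⟩,
        ⟨disj_An (by omega), disj_An (by omega),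
        disj_TT (by omega) (by omega), disj_TT (by omega) (by omega)⟩,
        ⟨disj_An le_rfl, disj_TT (by omega) (by omega), disj_TT (by omega) (by omega)⟩,
        ⟨disj_TT (by omega) (by omega), disj_TT (by omega) (by omega)⟩,
        CU_disj hjump, ?_⟩
      simp) (by
      intro X hX ζ hg hz
      simp only [List.mem_cons, List.not_mem_nil, or_false] at hX
      rcases hX with rfl | rfl | rfl | rfl | rfl | rfl
      · exact (min_le_left _ _).trans (harc S y (4 * n - 1) s1 ζ (by omega) (by omega)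
          (ag1_of' hT hn1 le_rfl (by omega) (by omega)) hg hz).1
      · exact (min_le_left _ _).trans (harc S y s1 s2 ζ (by omega) (by omega)
          (ag1_of' hT hn1 (by omega) (by omega) (by omega)) hg hz).2
      · exact (min_le_left _ _).trans (harc S y r1 R1 ζ (by omega) (by omega)
          (ag1_of' hT hn1 (by omega) (by omega) (by omega)) hg hz).1
      · exact (min_le_left _ _).trans (harc S y R1 R2 ζ (by omega) (by omega)
          (ag1_of' hT hn1 (by omega) (by omega) (by omega)) hg hz).2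
      · exact (min_le_right _ _).trans (hfar true S u x y ρ (R2 + 1) (R2 + 1 + n) n K ζ hn hT hu
          (by omega) (by omega) (by omega) (by omega) (by omega) (by omega) (by omega) hKn
          (by omega) hg)
      · exact (min_le_right _ _).trans (hfar false S u x y ρ (R2 + 1) (R2 + 1 + n) n K ζ hn hT hu
          (by omega) (by omega) (by omega) (by omega) (by omega) (by omega) (by omega) hKn
          (by omega) hg))
  have e6 : ∀ a b c d e f : Finset (ℤ × ℤ) × Set Cfg, [a, b, c, d, e, f].length = 6 :=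
    fun _ _ _ _ _ _ => rfl
  rw [e6] at key
  refine key.trans (Pr_mono hK.pos fun ξ hξ => ?_)
  simp only [Set.mem_ofPred_eq, List.mem_cons, List.not_mem_nil, or_false, forall_eq_or_imp,
    forall_eq] at hξ
  obtain ⟨g1, g2, g3, g4, g5, g6⟩ := hξ
  show TL S K3 K (Λ * Λ) x y n ξ
  unfold TL
  rw [hr1d, hL, h4k]
  refine ⟨OArcW.mono le_rfl (by omega) g3, DArcW.mono (by omega) (by omega) g4,
    far_of hT hn1 hu hxy (by nlinarith) (by omega) (by omega) (by omega) (by omega) (by omega) g5,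
    far_of hT hn1 hu hxy (by nlinarith) (by omega) (by omega) (by omega) (by omega) (by omega) g6,
    OArcW.mono le_rfl (by omega) g1, DArcW.mono (by omega) (by omega) g2⟩

end Vale.Agent.P167.N.H166Q
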